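import Vale.Agent.P292Z.Bridge
import Vale.Agent.P292.Dn.B5

open AlgebraicGeometry CategoryTheory

namespace Vale.Agent.Results.P292.AContactFanoVariety

open Vale.Agent.P292V

/-- Every contact Fano manifold `(X, F)` of dimension `2 n + 1 ≥ 3` is isomorphic over `ℂ` to an
adjoint variety `ℙ(O_min) ⊆ ℙ(g)` of a simple Lie algebra `g`, by an isomorphism which carries
`F` to the canonical contact distribution. -/
theorem result (n : ℕ) (hn : 1 ≤ n) (X : Scheme.{0}) [X.Over SpecC] [ConnectedSpace X]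
    [IsProper (X ↘ SpecC)] [SmoothOfRelativeDimension (2 * n + 1) (X ↘ SpecC)]
    (F : Distribution X) (hF : IsContact F) (hK : IsFano X (2 * n + 1)) :
    ∃ (g : Type) (_ : LieRing g) (_ : LieAlgebra ℂ g) (_ : FiniteDimensional ℂ g)
      (_ : LieAlgebra.IsSimple ℂ g) (O : Set g), Vale.Agent.P292.IsMinimalOrbit O ∧
        ∃ e : X ≅ projOrbit O, e.hom ≫ (projOrbit O ↘ SpecC) = X ↘ SpecC ∧
          Carries e F (canonical (incl O) O) :=
  Vale.Agent.P292Z.main (fun _ _ _ _ _ _ h₁ h₂ =>
    Vale.Agent.P292.isAdjointVariety_of_contactFano h₁ h₂) n hn X F hF hK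

end Vale.Agent.Results.P292.AContactFanoVariety
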